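import Vale.Agent.P011UGA.IF3
import Vale.Agent.P011UC.Gen

/-!
The dimension of the Levi subalgebras.
-/

set_option autoImplicit false
set_option linter.all false

namespace Vale.Agent.P011UY9

open Matrix Finset Vale.Agent.P183CH Vale.Agent.P183CH.Chev Vale.Agent.P011U Vale.Agent.P011UC
  Vale.Agent.P011UGA

variable {D : Chev} {K : Type} [Field K]

theorem ee_ne {γ : D.Q} (h : γ ∈ D.R.Φ) : ee D K γ ≠ 0 := fun e =>
  one_ne_zero ((mem_Φ.1 h).rh.prim.eq_zero (c := (1 : K)) ((one_smul _ _).trans e))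

/-- The coroots and the root vectors are linearly independent. -/
theorem lin (hD : SC D) (S : Finset D.Q) (hS : ∀ γ ∈ S, γ ∈ D.R.Φ) :
    LinearIndependent K (Sum.elim (fun i => ct K (D.hm i)) fun γ : S => ee D K γ.1) := by
  classical
  obtain ⟨z, hz⟩ := ex_z hD
  refine Fintype.linearIndependent_iff.2 fun c hc => ?_
  rw [Fintype.sum_sum_type] at hc
  rintro (i | γ)
  · have := congrArg (phi z (Pi.single i 1)) hc
    simp only [Sum.elim_inl, Sum.elim_inr, map_add, map_sum, map_smul, phi_hm hz, map_zero,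
      fun γ : S => phi_dg (z := z) (ee_wt (K := K) (hS _ γ.2)) (mem_Φ.1 (hS _ γ.2)).1] at this
    simpa [Pi.single_apply] using this
  · have := congrArg (D.cp γ.1) hc
    simp only [Sum.elim_inl, Sum.elim_inr, map_add, map_sum, map_smul, map_zero,
      fun i => cp_ne (Dg.ct (k := K) (dg_h i)) (mem_Φ.1 (hS _ γ.2)).1.symm, smul_zero,
      sum_const_zero, zero_add] at this
    rw [sum_eq_single γ (fun δ _ e => by
      rw [cp_ne (ee_wt (hS _ δ.2)) fun e' => e (Subtype.ext e'), smul_zero]) (by simp),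
      cp_self (ee_wt (hS _ γ.2))] at this
    exact (smul_eq_zero.1 this).resolve_right (ee_ne (hS _ γ.2))

/-- **The dimension of the Levi subalgebras.** -/
theorem dim : DIM := fun D hD K _ _ _ J => by
  classical
  have h := lin (K := K) hD (D.R.Φ.filter (D.R.In J)) fun γ h => (mem_filter.1 h).1
  have h1 := finrank_span_eq_card h
  rw [Fintype.card_sum, Fintype.card_fin, Fintype.card_coe] at h1
  refine le_trans (le_of_eq ?_) (h1.symm.le.trans (Submodule.finrank_mono
    (Submodule.span_le.2 ?_)))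
  · congr!
  · rintro _ ⟨i | γ, rfl⟩
    · exact lie_h i
    · exact lie_e (mem_Φ.1 (mem_filter.1 γ.2).1) (mem_filter.1 γ.2).2

end Vale.Agent.P011UY9
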